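import Mathlib

namespace Vale.Agent.Lib.P249.Helper47

open Finset SimpleGraph

variable {V : Type*}

/-- `Within H r t y`: there is a walk of length at most `t` from `r` to `y`. -/
def Within (H : SimpleGraph V) (r : V) (t : ℕ) (y : V) : Prop :=
  ∃ p : H.Walk r y, p.length ≤ t

theorem within_mono (H : SimpleGraph V) (r : V) {s t : ℕ} (hst : s ≤ t) {y : V}
    (h : Within H r s y) : Within H r t y := by
  obtain ⟨p, hp⟩ := h
  exact ⟨p, hp.trans hst⟩

theorem within_self (H : SimpleGraph V) (r : V) (t : ℕ) : Within H r t r :=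
  ⟨Walk.nil, by simp⟩

theorem within_zero (H : SimpleGraph V) (r : V) {y : V} (h : Within H r 0 y) : r = y := by
  obtain ⟨p, hp⟩ := h
  exact Walk.eq_of_length_eq_zero (Nat.le_zero.mp hp)

theorem within_succ_of_adj (H : SimpleGraph V) (r : V) {t : ℕ} {z y : V}
    (h : Within H r t z) (hzy : H.Adj z y) : Within H r (t + 1) y := by
  obtain ⟨p, hp⟩ := h
  exact ⟨p.concat hzy, by rw [Walk.length_concat]; omega⟩

/-- A walk of length at most `s + 1` to a neighbour of `z` avoids `z`,
if `z` is at distance more than `s`. -/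
theorem not_mem_support [DecidableEq V] (H : SimpleGraph V) (r : V) {s : ℕ} {z y : V}
    (hz : ¬ Within H r s z) (hzy : H.Adj z y) (p : H.Walk r y) (hp : p.length ≤ s + 1) :
    z ∉ p.support := by
  intro hmem
  have hspec := p.take_spec hmem
  have hlen : (p.takeUntil z hmem).length + (p.dropUntil z hmem).length = p.length := by
    conv_rhs => rw [← hspec]
    rw [Walk.length_append]
  have h1 : s + 1 ≤ (p.takeUntil z hmem).length := by
    by_contra hcon
    exact hz ⟨p.takeUntil z hmem, by omega⟩
  have h2 : (p.dropUntil z hmem).length = 0 := by omega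
  exact hzy.ne (Walk.eq_of_length_eq_zero h2)

/-- Key fact: a vertex at distance more than `s` has at most one neighbour within
distance `s + 1`, provided `s + 2 ≤ κ`. -/
theorem key [DecidableEq V] (H : SimpleGraph V) (κ : ℕ)
    (hstar : ∀ a b, H.Adj a b →
      ∀ p : (H.deleteEdges {s(a, b)}).Walk a b, 2 * κ - 1 < p.length)
    (r : V) {s : ℕ} (hs : s + 2 ≤ κ) {z y₁ y₂ : V}
    (hz : ¬ Within H r s z) (h₁ : H.Adj z y₁) (h₂ : H.Adj z y₂)
    (w₁ : Within H r (s + 1) y₁) (w₂ : Within H r (s + 1) y₂) : y₁ = y₂ := by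
  by_contra hne
  obtain ⟨p₁, hp₁⟩ := w₁
  obtain ⟨p₂, hp₂⟩ := w₂
  have hz₁ := not_mem_support H r hz h₁ p₁ hp₁
  have hz₂ := not_mem_support H r hz h₂ p₂ hp₂
  let q : H.Walk y₁ z := (p₁.reverse.append p₂).concat h₂.symm
  have hqlen : q.length ≤ 2 * κ - 1 := by
    simp only [q, Walk.length_concat, Walk.length_append, Walk.length_reverse]
    omega
  have hq : s(y₁, z) ∉ q.edges := by
    simp only [q, Walk.edges_concat, Walk.edges_append, Walk.edges_reverse, List.concat_eq_append,
      List.mem_append, List.mem_reverse, List.mem_singleton, not_or]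
    refine ⟨⟨fun h => hz₁ (p₁.snd_mem_support_of_mem_edges h),
      fun h => hz₂ (p₂.snd_mem_support_of_mem_edges h)⟩, ?_⟩
    intro h
    rw [Sym2.eq_iff] at h
    rcases h with ⟨h, _⟩ | ⟨h, h'⟩
    · exact hne h
    · exact h₁.ne h.symm
  have := hstar y₁ z h₁.symm (q.toDeleteEdge _ hq)
  rw [Walk.length_transfer] at this
  omega


/-- Moore-type bound: a graph supported on a finite set `S`, in which every vertex of `S` has
at least three neighbours and every edge `ab` has no walk of length at most `2κ - 1`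
between its ends avoiding it, has `3 * 2 ^ (κ - 1) ≤ |S| + 2`. -/
theorem moore_core [DecidableEq V] (H : SimpleGraph V) (S : Finset V) (κ : ℕ) (hκ : 2 ≤ κ)
    (hstar : ∀ a b, H.Adj a b →
      ∀ p : (H.deleteEdges {s(a, b)}).Walk a b, 2 * κ - 1 < p.length)
    (hsupp : ∀ a b, H.Adj a b → b ∈ S)
    (hdeg : ∀ z ∈ S, ∃ T : Finset V, 3 ≤ T.card ∧ ∀ y ∈ T, H.Adj z y)
    (r : V) (hr : r ∈ S) : 3 * 2 ^ (κ - 1) ≤ S.card + 2 := by
  classical
  set B : ℕ → Finset V := fun t => S.filter (fun y => Within H r t y) with hB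
  have memB : ∀ t y, y ∈ B t ↔ y ∈ S ∧ Within H r t y := by
    intro t y; simp [hB]
  have Bmono : ∀ t, B t ⊆ B (t + 1) := by
    intro t y hy
    rw [memB] at hy ⊢
    exact ⟨hy.1, within_mono H r (Nat.le_succ t) hy.2⟩
  set Lay : ℕ → Finset V := fun t => B (t + 1) \ B t with hLay
  have memLay : ∀ t y, y ∈ Lay t ↔ y ∈ S ∧ Within H r (t + 1) y ∧ ¬ Within H r t y := by
    intro t y
    simp only [hLay, Finset.mem_sdiff, memB]
    tauto
  have cardB : ∀ t, (B (t + 1)).card = (B t).card + (Lay t).card := by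
    intro t
    have := Finset.card_sdiff_add_card_eq_card (Bmono t)
    simp only [hLay]
    omega
  have hB0 : 1 ≤ (B 0).card := by
    apply Finset.card_pos.mpr
    exact ⟨r, (memB 0 r).mpr ⟨hr, within_self H r 0⟩⟩
  have hLay0 : 3 ≤ (Lay 0).card := by
    obtain ⟨T, hT3, hT⟩ := hdeg r hr
    refine hT3.trans (Finset.card_le_card ?_)
    intro y hy
    have hadj := hT y hy
    rw [memLay]
    refine ⟨hsupp r y hadj, within_succ_of_adj H r (within_self H r 0) hadj, fun h0 => ?_⟩
    exact hadj.ne (within_zero H r h0)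
  have hstep : ∀ s, s + 3 ≤ κ → 2 * (Lay s).card ≤ (Lay (s + 1)).card := by
    intro s hs
    have hmain := Finset.card_mul_le_card_mul (s := Lay s) (t := Lay (s + 1))
      (fun z y => H.Adj z y) (m := 2) (n := 1) ?_ ?_
    · omega
    · intro z hz
      rw [memLay] at hz
      obtain ⟨hzS, hzW, hzN⟩ := hz
      obtain ⟨T, hT3, hT⟩ := hdeg z hzS
      set T' := T.filter (fun y => Within H r (s + 1) y) with hT'
      have hT'1 : T'.card ≤ 1 := by
        rw [Finset.card_le_one]
        intro a ha b hb
        rw [hT', Finset.mem_filter] at ha hb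
        exact key H κ hstar r (by omega) hzN (hT a ha.1) (hT b hb.1) ha.2 hb.2
      have hsub : T \ T' ⊆ (Lay (s + 1)).bipartiteAbove (fun z y => H.Adj z y) z := by
        intro y hy
        rw [Finset.mem_sdiff, hT', Finset.mem_filter] at hy
        have hadj := hT y hy.1
        rw [Finset.mem_bipartiteAbove, memLay]
        exact ⟨⟨hsupp z y hadj, within_succ_of_adj H r hzW hadj, fun h => hy.2 ⟨hy.1, h⟩⟩, hadj⟩
      have h1 := Finset.card_le_card hsub
      have h2 := Finset.le_card_sdiff T' T
      omega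
    · intro y hy
      rw [memLay] at hy
      obtain ⟨hyS, hyW, hyN⟩ := hy
      rw [Finset.card_le_one]
      intro a ha b hb
      rw [Finset.mem_bipartiteBelow, memLay] at ha hb
      exact key H κ hstar r (by omega) hyN ha.2.symm hb.2.symm
        (within_mono H r (Nat.le_succ _) ha.1.2.1) (within_mono H r (Nat.le_succ _) hb.1.2.1)
  have hind : ∀ s, s + 2 ≤ κ →
      3 * 2 ^ s ≤ (Lay s).card ∧ 3 * 2 ^ (s + 1) ≤ (B (s + 1)).card + 2 := by
    intro s
    induction s with
    | zero =>
      intro _
      have := cardB 0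
      constructor <;> omega
    | succ s ih =>
      intro hs
      obtain ⟨ih1, ih2⟩ := ih (by omega)
      have h1 := hstep s (by omega)
      have h2 := cardB (s + 1)
      have e1 : 2 ^ (s + 1) = 2 * 2 ^ s := by ring
      have e2 : 2 ^ (s + 1 + 1) = 2 * 2 ^ (s + 1) := by ring
      constructor <;> omega
  obtain ⟨_, hfin⟩ := hind (κ - 2) (by omega)
  have e : κ - 2 + 1 = κ - 1 := by omega
  rw [e] at hfin
  have hle : (B (κ - 1)).card ≤ S.card := Finset.card_le_card (Finset.filter_subset _ _)
  omega


/-- (A) Every nonempty set of vertices contains a vertex with at most two neighbours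
inside the set. -/
theorem exists_low_degree [Fintype V] [DecidableEq V] (G : SimpleGraph V)
    [DecidableRel G.Adj] (κ : ℕ) (hκ : 2 ≤ κ) (hn : Fintype.card V + 2 < 3 * 2 ^ (κ - 1))
    (hstar : ∀ a b, G.Adj a b →
      ∀ p : (G.deleteEdges {s(a, b)}).Walk a b, 2 * κ - 1 < p.length)
    (S : Finset V) (hS : S.Nonempty) :
    ∃ z ∈ S, (S.filter (fun y => G.Adj z y)).card ≤ 2 := by
  by_contra hcon
  push Not at hcon
  obtain ⟨r, hr⟩ := hS
  let H : SimpleGraph V :=
    { Adj := fun a b => G.Adj a b ∧ a ∈ S ∧ b ∈ S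
      symm := ⟨fun a b h => ⟨h.1.symm, h.2.2, h.2.1⟩⟩
      loopless := ⟨fun a h => G.loopless.irrefl a h.1⟩ }
  have hle : H ≤ G := fun a b h => h.1
  have hstarH : ∀ a b, H.Adj a b →
      ∀ p : (H.deleteEdges {s(a, b)}).Walk a b, 2 * κ - 1 < p.length := by
    intro a b hab p
    have := hstar a b hab.1 (p.mapLe (deleteEdges_mono hle))
    rwa [Walk.length_mapLe] at this
  have hcore := moore_core H S κ hκ hstarH (fun a b h => h.2.2)
    (fun z hz => ⟨S.filter (fun y => G.Adj z y), hcon z hz, fun y hy => by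
      rw [Finset.mem_filter] at hy
      exact ⟨hy.2, hz, hy.1⟩⟩) r hr
  have hcard : S.card ≤ Fintype.card V := Finset.card_le_univ S
  omega

/-- (B) The number of ordered adjacent pairs inside any set `S` is at most `4 |S|`. -/
theorem pairs_le [Fintype V] [DecidableEq V] (G : SimpleGraph V)
    [DecidableRel G.Adj] (κ : ℕ) (hκ : 2 ≤ κ) (hn : Fintype.card V + 2 < 3 * 2 ^ (κ - 1))
    (hstar : ∀ a b, G.Adj a b →
      ∀ p : (G.deleteEdges {s(a, b)}).Walk a b, 2 * κ - 1 < p.length) :
    ∀ (n : ℕ) (S : Finset V), S.card = n →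
      ∑ z ∈ S, (S.filter (fun y => G.Adj z y)).card ≤ 4 * n := by
  intro n
  induction n with
  | zero =>
    intro S hS
    rw [Finset.card_eq_zero] at hS
    subst hS
    simp
  | succ n ih =>
    intro S hS
    have hne : S.Nonempty := by
      rw [← Finset.card_pos]; omega
    obtain ⟨z, hzS, hz2⟩ := exists_low_degree G κ hκ hn hstar S hne
    set S' := S.erase z with hS'
    have hzS' : z ∉ S' := Finset.notMem_erase z S
    have hSeq : S = insert z S' := (Finset.insert_erase hzS).symm
    have hcard' : S'.card = n := by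
      rw [hS', Finset.card_erase_of_mem hzS]; omega
    have hih := ih S' hcard'
    have hfil : ∀ y, (S.filter (fun x => G.Adj y x)).card
        = (S'.filter (fun x => G.Adj y x)).card + (if G.Adj y z then 1 else 0) := by
      intro y
      rw [hSeq, Finset.filter_insert]
      split_ifs with h
      · rw [Finset.card_insert_of_notMem (fun hmem => hzS' (Finset.mem_filter.mp hmem).1)]
      · rfl
    have hsum : ∑ y ∈ S, (S.filter (fun x => G.Adj y x)).card
        = (S.filter (fun x => G.Adj z x)).card
          + ∑ y ∈ S', (S.filter (fun x => G.Adj y x)).card := by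
      conv_lhs => rw [hSeq]
      rw [Finset.sum_insert hzS', ← hSeq]
    have hsum2 : ∑ y ∈ S', (S.filter (fun x => G.Adj y x)).card
        = ∑ y ∈ S', (S'.filter (fun x => G.Adj y x)).card
          + (S'.filter (fun y => G.Adj y z)).card := by
      rw [Finset.card_filter, ← Finset.sum_add_distrib]
      exact Finset.sum_congr rfl (fun y _ => hfil y)
    have hsymm : (S'.filter (fun y => G.Adj y z)).card
        ≤ (S.filter (fun x => G.Adj z x)).card := by
      apply Finset.card_le_card
      intro y hy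
      rw [Finset.mem_filter] at hy ⊢
      exact ⟨Finset.mem_of_mem_erase hy.1, hy.2.symm⟩
    rw [hsum, hsum2]
    omega

/-- Edge bound for graphs in which the ends of every edge are far apart once the edge is
deleted (pool job P249 J1). -/
theorem edge_bound [Fintype V] [DecidableEq V] (G : SimpleGraph V)
    [DecidableRel G.Adj] (κ : ℕ) (hκ : 2 ≤ κ) (hn : Fintype.card V + 2 < 3 * 2 ^ (κ - 1))
    (hstar : ∀ a b, G.Adj a b →
      ∀ p : (G.deleteEdges {s(a, b)}).Walk a b, 2 * κ - 1 < p.length) :
    G.edgeFinset.card ≤ 2 * Fintype.card V := by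
  have h := pairs_le G κ hκ hn hstar (Fintype.card V) Finset.univ Finset.card_univ
  have h2 : ∑ z : V, (Finset.univ.filter (fun y => G.Adj z y)).card = 2 * G.edgeFinset.card := by
    rw [← G.sum_degrees_eq_twice_card_edges]
    refine Finset.sum_congr rfl (fun z _ => ?_)
    rw [← G.card_neighborFinset_eq_degree, G.neighborFinset_eq_filter]
  omega

end Vale.Agent.Lib.P249.Helper47
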