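import Mathlib
import Vale.Agent.Lib.P249.helper52.Sampling

/-!
# P249: finite case of the incompressible-families theorem (pool job P249-INC-A, spare copy)
-/

namespace Vale.Agent.Lib.P249.H47

open Finset

/-- A sum over the indices with `M k ≠ 0` equals the full sum when the dropped terms vanish. -/
theorem sum_subtype_ne {m : ℕ} (M : Fin m → ℝ) (g : Fin m → ℝ)
    (hg : ∀ k, M k = 0 → g k = 0) :
    ∑ k : {k : Fin m // M k ≠ 0}, g k.1 = ∑ k, g k := by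
  classical
  rw [← Finset.sum_subtype (Finset.univ.filter fun k => M k ≠ 0) (by simp) g, Finset.sum_filter]
  refine Finset.sum_congr rfl fun k _ => ?_
  by_cases h : M k = 0
  · simp [h, hg k h]
  · simp [h]

/-- The number of pairs `j < i` below `n`. -/
theorem card_pairs (n : ℕ) (hn : 1 ≤ n) :
    2 * (Fintype.card ((i : Fin n) × Fin i) : ℝ) + 1 ≤ (n : ℝ) ^ 2 := by
  have h1 : Fintype.card ((i : Fin n) × Fin i) = ∑ i ∈ Finset.range n, i := by
    rw [Fintype.card_sigma]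
    simp only [Fintype.card_fin]
    exact Fin.sum_univ_eq_sum_range (fun i => i) n
  have h2 := Finset.sum_range_id_mul_two n
  have h4 : n * (n - 1) + n = n * n := by
    rw [Nat.mul_sub_one]
    exact Nat.sub_add_cancel (Nat.le_mul_self n)
  have h3 : 2 * Fintype.card ((i : Fin n) × Fin i) + 1 ≤ n ^ 2 := by
    rw [h1, pow_two]
    linarith [h2, h4]
  exact_mod_cast h3

/-- Finite case of the incompressible-families theorem (exact statement of pool job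
P249-INC-A). -/
theorem incomp_fin (p : ℝ) (hp : 1 ≤ p) (m n : ℕ) (hn : 2 ≤ n) (x : Fin n → Fin m → ℝ)
    (M : Fin m → ℝ) (hM : ∀ i k, |x i k| ≤ M k) (K : ℝ) (hK0 : 0 ≤ K)
    (hK : ∑ k, M k ^ p ≤ K ^ p) (ε : ℝ) (hε : 0 < ε) (hεK : ε < (2 * K) ^ p) :
    ∃ (d : ℕ) (y : Fin n → Fin d → ℝ),
      (d : ℝ) ≤ 128 * (2 * K) ^ (2 * p) * Real.log n / ε ^ 2 + 1 ∧
      ∀ i j, |∑ l, |y i l - y j l| ^ p - ∑ k, |x i k - x j k| ^ p| ≤ ε := by
  classical
  have hp0 : 0 < p := by linarith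
  have hpne : p ≠ 0 := hp0.ne'
  have hM0 : ∀ k, 0 ≤ M k := fun k => (abs_nonneg _).trans (hM ⟨0, by omega⟩ k)
  have hMp0 : ∀ k, 0 ≤ M k ^ p := fun k => Real.rpow_nonneg (hM0 k) p
  have hS0nn : 0 ≤ ∑ k, M k ^ p := Finset.sum_nonneg fun k _ => hMp0 k
  have hn1 : (1 : ℝ) < n := by exact_mod_cast hn
  have hlogn : 0 < Real.log n := Real.log_pos hn1
  have h2K : 0 < (2 * K) ^ p := lt_trans hε hεK
  have h2K2 : (2 * K) ^ (2 * p) = ((2 * K) ^ p) ^ 2 := by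
    rw [mul_comm 2 p, Real.rpow_mul (by positivity), Real.rpow_two]
  have hA : 0 < 128 * (2 * K) ^ (2 * p) * Real.log n / ε ^ 2 := by
    rw [h2K2]; positivity
  have hdiff : ∀ i j k, |x i k - x j k| ≤ 2 * M k := by
    intro i j k
    have := abs_sub (x i k) (x j k)
    linarith [hM i k, hM j k]
  have hdp : ∀ i j k, |x i k - x j k| ^ p ≤ 2 ^ p * M k ^ p := by
    intro i j k
    rw [← Real.mul_rpow (by norm_num) (hM0 k)]
    exact Real.rpow_le_rpow (abs_nonneg _) (hdiff i j k) hp0.le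
  have hVle : ∀ i j, ∑ k, |x i k - x j k| ^ p ≤ 2 ^ p * ∑ k, M k ^ p := by
    intro i j
    rw [Finset.mul_sum]
    exact Finset.sum_le_sum fun k _ => hdp i j k
  have h2pS0 : 2 ^ p * ∑ k, M k ^ p ≤ (2 * K) ^ p := by
    rw [Real.mul_rpow (by norm_num) hK0]
    exact mul_le_mul_of_nonneg_left hK (Real.rpow_nonneg (by norm_num) p)
  rcases hS0nn.eq_or_lt with hS00 | hS0pos
  · -- all bounds vanish
    have hMz : ∀ k, M k = 0 := by
      intro k
      have h1 : M k ^ p = 0 :=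
        (Finset.sum_eq_zero_iff_of_nonneg (fun k _ => hMp0 k)).1 hS00.symm k (Finset.mem_univ k)
      exact (Real.rpow_eq_zero (hM0 k) hpne).1 h1
    have hxz : ∀ i k, x i k = 0 := fun i k =>
      abs_eq_zero.1 (le_antisymm (by rw [← hMz k]; exact hM i k) (abs_nonneg _))
    refine ⟨0, fun _ _ => 0, ?_, ?_⟩
    · push_cast
      linarith [hA.le]
    · intro i j
      simp [hxz, Real.zero_rpow hpne, hε.le]
  · -- the main case
    let w : {k : Fin m // M k ≠ 0} → ((i : Fin n) × Fin i) → ℝ := fun k f =>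
      |x f.1 k.1 - x ⟨f.2.1, f.2.2.trans f.1.2⟩ k.1| ^ p + 2 ^ p * M k.1 ^ p
    let s : {k : Fin m // M k ≠ 0} → ℝ := fun k => 2 * M k.1 ^ p / ∑ k, M k ^ p
    let v : ((i : Fin n) × Fin i) → ℝ := fun f => ∑ k : {k : Fin m // M k ≠ 0}, w k f
    have hsumKc : ∑ k : {k : Fin m // M k ≠ 0}, M k.1 ^ p = ∑ k, M k ^ p :=
      sum_subtype_ne M (fun k => M k ^ p) (fun k hk => by rw [hk, Real.zero_rpow hpne])
    have hw : ∀ k f, 0 ≤ w k f := fun k f =>
      add_nonneg (Real.rpow_nonneg (abs_nonneg _) p)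
        (mul_nonneg (Real.rpow_nonneg (by norm_num) p) (hMp0 k.1))
    have hs0 : ∀ k, 0 ≤ s k := fun k =>
      div_nonneg (mul_nonneg (by norm_num) (hMp0 k.1)) hS0nn
    have hvge : ∀ f, 2 ^ p * ∑ k, M k ^ p ≤ v f := by
      intro f
      show 2 ^ p * ∑ k, M k ^ p ≤ ∑ k : {k : Fin m // M k ≠ 0}, w k f
      rw [← hsumKc, Finset.mul_sum]
      exact Finset.sum_le_sum fun k _ =>
        le_add_of_nonneg_left (Real.rpow_nonneg (abs_nonneg _) p)
    have hs : ∀ k f, w k f ≤ s k * v f := by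
      intro k f
      have h1 : w k f ≤ 2 * (2 ^ p * M k.1 ^ p) := by
        show |x f.1 k.1 - x ⟨f.2.1, f.2.2.trans f.1.2⟩ k.1| ^ p + 2 ^ p * M k.1 ^ p ≤ _
        linarith [hdp f.1 ⟨f.2.1, f.2.2.trans f.1.2⟩ k.1]
      have h2 : 2 * (2 ^ p * M k.1 ^ p) = s k * (2 ^ p * ∑ k, M k ^ p) := by
        show _ = 2 * M k.1 ^ p / (∑ k, M k ^ p) * (2 ^ p * ∑ k, M k ^ p)
        field_simp
      calc w k f ≤ s k * (2 ^ p * ∑ k, M k ^ p) := by rw [← h2]; exact h1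
        _ ≤ s k * v f := mul_le_mul_of_nonneg_left (hvge f) (hs0 k)
    have hS : (2 : ℝ) = ∑ k : {k : Fin m // M k ≠ 0}, s k := by
      show (2 : ℝ) = ∑ k : {k : Fin m // M k ≠ 0}, 2 * M k.1 ^ p / ∑ k, M k ^ p
      rw [← Finset.sum_div, ← Finset.mul_sum, hsumKc]
      field_simp
    have hδ0 : 0 < ε / (2 * (2 * K) ^ p) := by positivity
    have hδ1 : ε / (2 * (2 * K) ^ p) ≤ 1 := by
      rw [div_le_one (by positivity)]; linarith
    have hdle : ((⌈128 * (2 * K) ^ (2 * p) * Real.log n / ε ^ 2⌉₊ : ℕ) : ℝ)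
        ≤ 128 * (2 * K) ^ (2 * p) * Real.log n / ε ^ 2 + 1 := (Nat.ceil_lt_add_one hA.le).le
    have hdge : 128 * (2 * K) ^ (2 * p) * Real.log n / ε ^ 2
        ≤ ((⌈128 * (2 * K) ^ (2 * p) * Real.log n / ε ^ 2⌉₊ : ℕ) : ℝ) := Nat.le_ceil _
    have hdpos : 0 < ((⌈128 * (2 * K) ^ (2 * p) * Real.log n / ε ^ 2⌉₊ : ℕ) : ℝ) :=
      lt_of_lt_of_le hA hdge
    have hdcond : 8 * 2 * Real.log (2 * (Fintype.card ((i : Fin n) × Fin i) : ℝ) + 1)
        ≤ (ε / (2 * (2 * K) ^ p)) ^ 2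
          * ((⌈128 * (2 * K) ^ (2 * p) * Real.log n / ε ^ 2⌉₊ : ℕ) : ℝ) := by
      have hl2 : Real.log ((n : ℝ) ^ 2) = 2 * Real.log n := by
        rw [Real.log_pow]; norm_num
      have h1 : Real.log (2 * (Fintype.card ((i : Fin n) × Fin i) : ℝ) + 1)
          ≤ 2 * Real.log n := by
        rw [← hl2]
        exact Real.log_le_log (by positivity) (card_pairs n (by omega))
      have h2 : (ε / (2 * (2 * K) ^ p)) ^ 2
          * (128 * (2 * K) ^ (2 * p) * Real.log n / ε ^ 2) = 32 * Real.log n := by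
        rw [h2K2]
        field_simp
        ring
      calc 8 * 2 * Real.log (2 * (Fintype.card ((i : Fin n) × Fin i) : ℝ) + 1)
          ≤ 32 * Real.log n := by linarith
        _ = (ε / (2 * (2 * K) ^ p)) ^ 2
            * (128 * (2 * K) ^ (2 * p) * Real.log n / ε ^ 2) := h2.symm
        _ ≤ _ := mul_le_mul_of_nonneg_left hdge (sq_nonneg _)
    obtain ⟨κ, hκ⟩ := sampling w s v 2 hw (fun f => rfl) hs0 hs hS (by norm_num)
      (ε / (2 * (2 * K) ^ p)) hδ0 hδ1 ⌈128 * (2 * K) ^ (2 * p) * Real.log n / ε ^ 2⌉₊ hdcond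
    have hMκ : ∀ l, 0 < M (κ l).1 ^ p := fun l =>
      Real.rpow_pos_of_pos (lt_of_le_of_ne (hM0 _) (Ne.symm (κ l).2)) p
    have hρ0 : ∀ l, 0 ≤ (∑ k, M k ^ p)
        / (((⌈128 * (2 * K) ^ (2 * p) * Real.log n / ε ^ 2⌉₊ : ℕ) : ℝ) * M (κ l).1 ^ p) :=
      fun l => div_nonneg hS0nn (mul_nonneg hdpos.le (hMκ l).le)
    have hρs : ∀ l, 2 / (((⌈128 * (2 * K) ^ (2 * p) * Real.log n / ε ^ 2⌉₊ : ℕ) : ℝ) * s (κ l))
        = (∑ k, M k ^ p)
          / (((⌈128 * (2 * K) ^ (2 * p) * Real.log n / ε ^ 2⌉₊ : ℕ) : ℝ) * M (κ l).1 ^ p) := by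
      intro l
      show 2 / (((⌈128 * (2 * K) ^ (2 * p) * Real.log n / ε ^ 2⌉₊ : ℕ) : ℝ)
          * (2 * M (κ l).1 ^ p / ∑ k, M k ^ p)) = _
      have h1 := (hMκ l).ne'
      have h2 := hS0pos.ne'
      have h3 := hdpos.ne'
      field_simp
    refine ⟨⌈128 * (2 * K) ^ (2 * p) * Real.log n / ε ^ 2⌉₊, fun i l => x i (κ l).1
      * ((∑ k, M k ^ p)
        / (((⌈128 * (2 * K) ^ (2 * p) * Real.log n / ε ^ 2⌉₊ : ℕ) : ℝ) * M (κ l).1 ^ p))
          ^ (1 / p), hdle, ?_⟩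
    have hy : ∀ (i j : Fin n) (l : Fin ⌈128 * (2 * K) ^ (2 * p) * Real.log n / ε ^ 2⌉₊) (ρ : ℝ),
        0 ≤ ρ → |x i (κ l).1 * ρ ^ (1 / p) - x j (κ l).1 * ρ ^ (1 / p)| ^ p
          = |x i (κ l).1 - x j (κ l).1| ^ p * ρ := by
      intro i j l ρ hρ
      rw [← sub_mul, abs_mul, abs_of_nonneg (Real.rpow_nonneg hρ _),
        Real.mul_rpow (abs_nonneg _) (Real.rpow_nonneg hρ _), ← Real.rpow_mul hρ,
        one_div_mul_cancel hpne, Real.rpow_one]
    have hmain : ∀ (i j : Fin n), j.1 < i.1 →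
        |∑ l, |x i (κ l).1 * ((∑ k, M k ^ p)
            / (((⌈128 * (2 * K) ^ (2 * p) * Real.log n / ε ^ 2⌉₊ : ℕ) : ℝ) * M (κ l).1 ^ p))
              ^ (1 / p)
          - x j (κ l).1 * ((∑ k, M k ^ p)
            / (((⌈128 * (2 * K) ^ (2 * p) * Real.log n / ε ^ 2⌉₊ : ℕ) : ℝ) * M (κ l).1 ^ p))
              ^ (1 / p)| ^ p
          - ∑ k, |x i k - x j k| ^ p| ≤ ε := by
      intro i j hji
      have hf := hκ ⟨i, ⟨j.1, hji⟩⟩
      have e1 : ∑ l, w (κ l) ⟨i, ⟨j.1, hji⟩⟩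
            * (2 / (((⌈128 * (2 * K) ^ (2 * p) * Real.log n / ε ^ 2⌉₊ : ℕ) : ℝ) * s (κ l)))
          = ∑ l, |x i (κ l).1 * ((∑ k, M k ^ p)
            / (((⌈128 * (2 * K) ^ (2 * p) * Real.log n / ε ^ 2⌉₊ : ℕ) : ℝ) * M (κ l).1 ^ p))
              ^ (1 / p)
          - x j (κ l).1 * ((∑ k, M k ^ p)
            / (((⌈128 * (2 * K) ^ (2 * p) * Real.log n / ε ^ 2⌉₊ : ℕ) : ℝ) * M (κ l).1 ^ p))
              ^ (1 / p)| ^ p + 2 ^ p * ∑ k, M k ^ p := by
        have hterm : ∀ l, w (κ l) ⟨i, ⟨j.1, hji⟩⟩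
            * (2 / (((⌈128 * (2 * K) ^ (2 * p) * Real.log n / ε ^ 2⌉₊ : ℕ) : ℝ) * s (κ l)))
            = |x i (κ l).1 * ((∑ k, M k ^ p)
              / (((⌈128 * (2 * K) ^ (2 * p) * Real.log n / ε ^ 2⌉₊ : ℕ) : ℝ) * M (κ l).1 ^ p))
                ^ (1 / p)
            - x j (κ l).1 * ((∑ k, M k ^ p)
              / (((⌈128 * (2 * K) ^ (2 * p) * Real.log n / ε ^ 2⌉₊ : ℕ) : ℝ) * M (κ l).1 ^ p))
                ^ (1 / p)| ^ p
              + 2 ^ p * (∑ k, M k ^ p)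
                / ((⌈128 * (2 * K) ^ (2 * p) * Real.log n / ε ^ 2⌉₊ : ℕ) : ℝ) := by
          intro l
          rw [hρs l, hy i j l _ (hρ0 l)]
          show (|x i (κ l).1 - x j (κ l).1| ^ p + 2 ^ p * M (κ l).1 ^ p) * _ = _
          have h1 := (hMκ l).ne'
          have h3 := hdpos.ne'
          field_simp
        rw [Finset.sum_congr rfl (fun l _ => hterm l), Finset.sum_add_distrib, Finset.sum_const,
          Finset.card_univ, Fintype.card_fin, nsmul_eq_mul]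
        congr 1
        have h3 := hdpos.ne'
        field_simp
      have e2 : v ⟨i, ⟨j.1, hji⟩⟩ = ∑ k, |x i k - x j k| ^ p + 2 ^ p * ∑ k, M k ^ p := by
        show ∑ k : {k : Fin m // M k ≠ 0}, (|x i k.1 - x j k.1| ^ p + 2 ^ p * M k.1 ^ p) = _
        rw [Finset.sum_add_distrib, ← Finset.mul_sum, hsumKc]
        congr 1
        refine sum_subtype_ne M (fun k => |x i k - x j k| ^ p) (fun k hk => ?_)
        have hi : x i k = 0 :=
          abs_eq_zero.1 (le_antisymm (by rw [← hk]; exact hM i k) (abs_nonneg _))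
        have hj : x j k = 0 :=
          abs_eq_zero.1 (le_antisymm (by rw [← hk]; exact hM j k) (abs_nonneg _))
        show |x i k - x j k| ^ p = 0
        rw [hi, hj, sub_zero, abs_zero, Real.zero_rpow hpne]
      rw [e1, e2] at hf
      have hV := hVle i j
      have hδε : ε / (2 * (2 * K) ^ p)
          * (∑ k, |x i k - x j k| ^ p + 2 ^ p * ∑ k, M k ^ p) ≤ ε := by
        have h1 : ∑ k, |x i k - x j k| ^ p + 2 ^ p * ∑ k, M k ^ p ≤ 2 * (2 * K) ^ p := by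
          linarith
        calc ε / (2 * (2 * K) ^ p) * (∑ k, |x i k - x j k| ^ p + 2 ^ p * ∑ k, M k ^ p)
            ≤ ε / (2 * (2 * K) ^ p) * (2 * (2 * K) ^ p) :=
              mul_le_mul_of_nonneg_left h1 hδ0.le
          _ = ε := by field_simp
      rw [abs_le]
      constructor
      · nlinarith [hf.1, hf.2, hδε]
      · nlinarith [hf.1, hf.2, hδε]
    intro i j
    show |∑ l, |x i (κ l).1 * ((∑ k, M k ^ p)
            / (((⌈128 * (2 * K) ^ (2 * p) * Real.log n / ε ^ 2⌉₊ : ℕ) : ℝ) * M (κ l).1 ^ p))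
              ^ (1 / p)
          - x j (κ l).1 * ((∑ k, M k ^ p)
            / (((⌈128 * (2 * K) ^ (2 * p) * Real.log n / ε ^ 2⌉₊ : ℕ) : ℝ) * M (κ l).1 ^ p))
              ^ (1 / p)| ^ p
          - ∑ k, |x i k - x j k| ^ p| ≤ ε
    rcases lt_trichotomy i.1 j.1 with h | h | h
    · have hm := hmain j i h
      have e1 : ∀ l : Fin ⌈128 * (2 * K) ^ (2 * p) * Real.log n / ε ^ 2⌉₊,
          |x i (κ l).1 * ((∑ k, M k ^ p)
            / (((⌈128 * (2 * K) ^ (2 * p) * Real.log n / ε ^ 2⌉₊ : ℕ) : ℝ) * M (κ l).1 ^ p))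
              ^ (1 / p)
          - x j (κ l).1 * ((∑ k, M k ^ p)
            / (((⌈128 * (2 * K) ^ (2 * p) * Real.log n / ε ^ 2⌉₊ : ℕ) : ℝ) * M (κ l).1 ^ p))
              ^ (1 / p)|
          = |x j (κ l).1 * ((∑ k, M k ^ p)
            / (((⌈128 * (2 * K) ^ (2 * p) * Real.log n / ε ^ 2⌉₊ : ℕ) : ℝ) * M (κ l).1 ^ p))
              ^ (1 / p)
          - x i (κ l).1 * ((∑ k, M k ^ p)
            / (((⌈128 * (2 * K) ^ (2 * p) * Real.log n / ε ^ 2⌉₊ : ℕ) : ℝ) * M (κ l).1 ^ p))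
              ^ (1 / p)| := fun l => abs_sub_comm _ _
      have e2 : ∀ k, |x i k - x j k| = |x j k - x i k| := fun k => abs_sub_comm _ _
      simp only [e1, e2]
      exact hm
    · have hij : i = j := Fin.ext h
      subst hij
      simp [Real.zero_rpow hpne, hε.le]
    · exact hmain i j h

end Vale.Agent.Lib.P249.H47
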